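import Vale.Agent.P354XJ.Glue
import Vale.Agent.P354GT.Main

/-!
Block GLU: curves under isometric embeddings, and the causal structure of the interior part.
-/

set_option linter.all false

open scoped ContDiff
open Set Filter Topology

noncomputable section

namespace Vale.Agent.P354YG

open Vale.Agent.P354n
open Vale.Agent.P354XJ
open Vale.Agent.P354P
open Vale.Agent.P354I (NoExt)
open Vale.Agent.P354GT (kap kap_emb bs_kap chS)

variable {M N : Spc} {κ : M.pt → N.pt} {I J : Set ℝ}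

theorem cv_push (hM : IsSpacetime IsSmooth M) (hN : IsSpacetime IsSmooth N)
    (h : IsOpenEmbedding κ) (hI : IsIsom κ) (hu : UniqueDiffOn ℝ I) {c : ℝ → M.pt}
    (hc : IsFutureCurve M 0 I c) : IsFutureCurve N 0 I fun t => κ (c t) :=
  IsFutureCurve.of (P354p.IsFutureCurve.push_map h hM.up hN.up hI.up hu (hc.up le_rfl))

theorem cv_mono {c : ℝ → M.pt} (hc : IsFutureCurve M 0 I c) (hJ : J ⊆ I) (hu : UniqueDiffOn ℝ J) :
    IsFutureCurve M 0 J c :=
  IsFutureCurve.of ((hc.up le_rfl).mono hJ hu)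

theorem cv_congr {c c' : ℝ → M.pt} (hc : IsFutureCurve M 0 I c) (h : ∀ t ∈ I, c' t = c t) :
    IsFutureCurve M 0 I c' :=
  IsFutureCurve.of ((hc.up le_rfl).congr h)

theorem cv_pull (hM : IsSpacetime IsSmooth M) (hN : IsSpacetime IsSmooth N)
    (h : IsOpenEmbedding κ) (hI : IsIsom κ) (hu : UniqueDiffOn ℝ I) {c : ℝ → N.pt}
    {b : ℝ → M.pt} (hc : IsFutureCurve N 0 I c) (e : ∀ t ∈ I, κ (b t) = c t) :
    IsFutureCurve M 0 I b :=
  IsFutureCurve.of (P354p.IsFutureCurve.pull_map h hM.up hN.up hI.up hu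
    ((cv_congr hc e).up le_rfl))

/-- A curve in the range of κ has a lift. -/
theorem cv_lift (hM : IsSpacetime IsSmooth M) (hN : IsSpacetime IsSmooth N)
    (h : IsOpenEmbedding κ) (hI : IsIsom κ) (hu : UniqueDiffOn ℝ I) (hne : I.Nonempty)
    {c : ℝ → N.pt} (hc : IsFutureCurve N 0 I c) (e : ∀ t ∈ I, c t ∈ range κ) :
    ∃ b, IsFutureCurve M 0 I b ∧ ∀ t ∈ I, κ (b t) = c t := by
  obtain ⟨t0, h0⟩ := hne
  obtain ⟨p0, -⟩ := e t0 h0
  have ex : ∀ t : ℝ, ∃ p, t ∈ I → κ p = c t := fun t => by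
    by_cases k : t ∈ I
    · exact (e t k).imp fun p hp _ => hp
    · exact ⟨p0, fun k' => absurd k' k⟩
  choose b hb using ex
  exact ⟨b, cv_pull hM hN h hI hu hc hb, hb⟩

/-- Affine change of the parameter. -/
theorem cv_aff (hN : IsSpacetime IsSmooth N) {c : ℝ → N.pt} {s l : ℝ} (hl : 0 < l)
    (hu : UniqueDiffOn ℝ J) (hm : MapsTo (fun x : ℝ => s + x * l) J I)
    (hc : IsFutureCurve N 0 I c) : IsFutureCurve N 0 J fun x => c (s + x * l) := by
  have hd : ContDiff ℝ 1 fun x : ℝ => s + x * l := by fun_prop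
  refine ⟨hc.1.comp hd.continuous.continuousOn hm, fun t ht e he => ?_⟩
  obtain ⟨k1, k2⟩ := hc.2 _ (hm ht) e he
  obtain ⟨k3, k4⟩ := k2 _ _ rfl rfl
  refine ⟨ContDiffWithinAt.comp t (g := fun s => co e (c s)) k1 hd.contDiffWithinAt hm,
    fun y w hy hw => ?_⟩
  have k5 : HasDerivWithinAt (fun x : ℝ => s + x * l) l J t :=
    (((hasDerivAt_id t).mul_const l).const_add s).hasDerivWithinAt.congr_deriv (one_mul l)
  have k6 := ((k1.differentiableWithinAt one_ne_zero).hasDerivWithinAt.scomp t k5 hm).derivWithin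
    (hu t ht)
  have k7 := P354V.Fu.smul (N := Up N) hN.up ⟨co_mem he, by simpa using k3, k4⟩ hl
  rw [hy, hw.trans k6]
  exact ⟨by rw [neg_zero]; exact k7.2.1, k7.2.2⟩

lemma tend_scale {l : ℝ} (hl : 0 < l) :
    Tendsto (fun x : ℝ => x / l) (𝓝[>] 0) (𝓝[>] 0) := by
  refine tendsto_nhdsWithin_iff.2 ⟨tendsto_nhdsWithin_of_tendsto_nhds ?_,
    eventually_nhdsWithin_of_forall fun s hs => div_pos hs hl⟩
  simpa using (continuous_id.div_const l).tendsto (0 : ℝ)

/-- The initial part of a curve, with the parameter in (0,1). -/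
theorem cv_init (hN : IsSpacetime IsSmooth N) {c : ℝ → N.pt} {l : ℝ} (hl : l ∈ Ioc (0 : ℝ) 1)
    (hc : IsFutureCurve N 0 (Ioo 0 1) c) :
    IsFutureCurve N 0 (Ioo 0 1) (fun x => c (0 + x * l)) ∧
      (∀ x ∈ Ioo (0 : ℝ) 1, 0 + x * l ∈ Ioo 0 l) ∧
      ∀ p, Tendsto (fun x => c (0 + x * l)) (𝓝[>] 0) (𝓝 p) → Tendsto c (𝓝[>] 0) (𝓝 p) := by
  have m : ∀ x ∈ Ioo (0 : ℝ) 1, 0 + x * l ∈ Ioo 0 l := fun x hx =>
    ⟨by nlinarith [hx.1, hl.1], by nlinarith [hx.2, hl.1]⟩
  refine ⟨cv_aff (I := Ioo 0 1) hN hl.1 isOpen_Ioo.uniqueDiffOn (fun x hx => ⟨(m x hx).1,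
    (m x hx).2.trans_le hl.2⟩) hc, m, fun p hp => (hp.comp (tend_scale hl.1)).congr fun x => ?_⟩
  simp only [Function.comp, zero_add, div_mul_cancel₀ _ hl.1.ne']

/-- The final part of a curve, with the parameter in (0,1). -/
theorem cv_fin (hN : IsSpacetime IsSmooth N) {c : ℝ → N.pt} {s L : ℝ} (hl : s < L)
    (hc : IsFutureCurve N 0 (Ioo s L) c) :
    IsFutureCurve N 0 (Ioo 0 1) (fun x => c (s + x * (L - s))) ∧
      (∀ x ∈ Ioo (0 : ℝ) 1, s + x * (L - s) ∈ Ioo s L) ∧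
      ∀ p, Tendsto (fun x => c (s + x * (L - s))) (𝓝[<] 1) (𝓝 p) → Tendsto c (𝓝[<] L) (𝓝 p) := by
  have l0 : 0 < L - s := sub_pos.2 hl
  have m : ∀ x ∈ Ioo (0 : ℝ) 1, s + x * (L - s) ∈ Ioo s L := fun x hx =>
    ⟨by nlinarith [hx.1], by nlinarith [hx.2]⟩
  refine ⟨cv_aff (I := Ioo s L) hN l0 isOpen_Ioo.uniqueDiffOn m hc, m, fun p hp =>
    (hp.comp (f := fun t => (t - s) / (L - s)) ?_).congr fun x => ?_⟩
  · refine tendsto_nhdsWithin_iff.2 ⟨tendsto_nhdsWithin_of_tendsto_nhds ?_,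
      eventually_nhdsWithin_of_forall fun t (ht : t < L) => (div_lt_one l0).2 (by linarith)⟩
    have := ((continuous_id.sub continuous_const).div_const (L - s)).tendsto (f := fun t : ℝ =>
      (t - s) / (L - s)) L
    rwa [div_self l0.ne'] at this
  · simp only [Function.comp, div_mul_cancel₀ _ l0.ne', add_sub_cancel]

/-! ### The interior part -/

/-- A vacuum spacetime with a function τ, whose part τ ≥ 0 is connected and has no past
inextendible curves, and an open part of τ > 0 without extension, which every future inextendible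
curve meets. -/
structure Inn (M : Spc) (τ : M.pt → ℝ) : Prop where
  st : IsSpacetime IsSmooth M
  sc : SecondCountableTopology M.pt
  vac : IsVacuum M
  cont : Continuous τ
  past : ∀ c, IsFutureCurve M 0 (Ioo 0 1) c → (∀ t ∈ Ioo (0 : ℝ) 1, 0 ≤ τ (c t)) →
    ∃ x, Tendsto c (𝓝[>] 0) (𝓝 x)
  conn : IsPreconnected {p | 0 ≤ τ p}
  top : ∃ (M' : Spc) (k : M'.pt → M.pt), IsSpacetime IsSmooth M' ∧ IsOpenEmbedding k ∧ IsIsom k ∧
    NoExt M' ∧ (∀ q, 0 < τ (k q)) ∧ ∀ c, IsFutureCurve M 0 (Ioo 0 1) c →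
      (∀ t ∈ Ioo (0 : ℝ) 1, c t ∉ range k) → ∃ x, Tendsto c (𝓝[<] 1) (𝓝 x)

variable {δ δ' t : ℝ} {C C' : Bool → ℕ → R4 → ℝ}

theorem kap_isom (h' : IsDN δ' C') (ht : δ' ≤ δ + t)
    (e : ∀ σ i, ∀ y ∈ Dm δ', C σ i (y + (t, t, 0)) = C' σ i y) :
    IsIsom (M := sp δ' C') (N := sp δ C) (kap (δ + t - δ')) := by
  intro (c : Ch δ') (c' : Ch δ) T hT y hy hon
  have e0 : ∀ p, co (M := sp δ C) c' (kap (δ + t - δ') p) = co (M := sp δ' C') (chS c' δ' t) p :=
    fun p => by rw [co_eq, bs_kap ht]; rfl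
  have o := In.of_on hon
  have m : bs δ' c'.σ (inv (M := sp δ' C') c y) ∈ Dm δ' := bs_mem _ _ _ o.2
  have m' : bs δ' c'.σ (inv (M := sp δ' C') c y) + (t, t, 0) ∈ c'.ξ.source := bs_kap ht _ _ ▸ hon.2
  have e1 : c'.ξ.symm (T y) = bs δ' c'.σ (inv (M := sp δ' C') c y) + (t, t, 0) := by
    rw [← c'.ξ.left_inv m', hT]
    exact congrArg (fun z => c'.ξ.symm (c'.ξ z)) (bs_kap ht _ _)
  have e2 : (chS c' δ' t).ξ.symm (T y) = bs δ' c'.σ (inv (M := sp δ' C') c y) := by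
    show c'.ξ.symm (T y) + -(t, t, 0) = _
    rw [e1, add_neg_cancel_right]
  have e3 : ∀ v w, (sp δ C).g c' (T y) v w = (sp δ' C').g (chS c' δ' t) (T y) v w := fun v w => by
    rw [g_eq, g_eq, e1, e2, show fderiv ℝ (chS c' δ' t).ξ.symm (T y) = fderiv ℝ c'.ξ.symm (T y) from
      fderiv_add_const _]
    simp only [bil, P354n.h1, P354n.h2, e _ _ _ m]
    rfl
  have e4 : (sp δ C).X c' (T y) = (sp δ' C').X (chS c' δ' t) (T y) := by
    rw [X_eq, X_eq, e1, e2, show fderiv ℝ (chS c' δ' t).ξ (bs δ' c'.σ (inv (M := sp δ' C') c y)) =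
      fderiv ℝ c'.ξ _ from fderiv_comp_add_right _]
    simp only [X0, e _ _ _ m]
    rfl
  simp only [e3, e4]
  exact (isSpacetime h').tensor c (chS c' δ' t) T (hT.trans (funext fun y => e0 _)) y hy
    ⟨o.1, ⟨trivial, m⟩, m'⟩

theorem inn_sp (h : IsDN δ C) (hv : IsVacuum (sp δ C)) (h' : IsDN δ' C') (ht : δ' ≤ t)
    (e : ∀ σ i, ∀ y ∈ Dm δ', C σ i (y + (t, t, 0)) = C' σ i y) (H : NoExt (sp δ' C')) :
    Inn (sp δ C) fun p : Pt => uu δ p + vv δ p where
  st := isSpacetime h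
  sc := inferInstanceAs (SecondCountableTopology Pt)
  vac := hv
  cont := by unfold uu vv; fun_prop
  past a H k := by
    obtain ⟨mu, mv⟩ := uv_mono h H Subset.rfl
    have hn : ∀ t ∈ Ioo (0 : ℝ) 1, Ioo (0 : ℝ) 1 ∈ 𝓝 t := fun t ht => Ioo_mem_nhds ht.1 ht.2
    have hc : ∀ t ∈ Ioo (0 : ℝ) 1, ContinuousAt a t := fun t ht => H.1.continuousAt (hn t ht)
    have m0 : (1 / 2 : ℝ) ∈ Ioo (0 : ℝ) 1 := by norm_num
    have a1 := le_abs_self (uu δ (a (1 / 2)))
    have a2 := neg_abs_le (uu δ (a (1 / 2)))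
    have a3 := le_abs_self (vv δ (a (1 / 2)))
    have a4 := neg_abs_le (vv δ (a (1 / 2)))
    obtain ⟨x, hx⟩ := lim_of (b := fun s => a (1 - s)) (ε := -1) (m := 0)
      (A := |uu δ (a (1 / 2))| + |vv δ (a (1 / 2))|) h m0.2 (by norm_num) (neg_lt_zero.2 h.pos)
      fun t ht => by
        have ht' : 1 - t ∈ Ioo (0 : ℝ) 1 := ⟨by linarith [ht.2], by linarith [ht.1]⟩
        have b1 := mu ht' m0 (by linarith [ht.1])
        have b2 := mv ht' m0 (by linarith [ht.1])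
        have b3 := k _ ht'
        refine ⟨(hc _ ht').comp (f := fun s => 1 - s) (by fun_prop),
          abs_le.2 ⟨by linarith, by linarith⟩, abs_le.2 ⟨by linarith, by linarith⟩,
          by linarith, fun σ k' => ?_⟩
        obtain ⟨w, k3, k4⟩ := vel_of_curve h H (hn _ ht') k'
        exact ⟨w, k3.scomp t ((hasDerivAt_id t).const_sub 1), k4⟩
    refine ⟨x, (hx.comp (f := fun s => 1 - s) ?_).congr fun s => congrArg a (sub_sub_cancel 1 s)⟩
    refine tendsto_nhdsWithin_iff.2 ⟨tendsto_nhdsWithin_of_tendsto_nhds ?_,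
      eventually_nhdsWithin_of_forall fun s hs => by simpa using hs⟩
    simpa using (continuous_sub_left (1 : ℝ)).tendsto 0
  conn := by
    have e : {p : Pt | 0 ≤ uu δ p + vv δ p} = Ici (Real.log δ) ×ˢ univ := by
      ext p
      simp only [mem_setOf_eq, uu, vv, mem_prod, mem_Ici, mem_univ, and_true,
        Real.log_le_iff_le_exp h.pos]
      constructor <;> intro k <;> linarith
    have : ConnectedSpace Pt := P354P.connected (δ := δ) (C := C)
    have k : IsPreconnected (univ : Set (ℝ × P354E.S2)) := by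
      have := (isPreconnected_univ (α := Pt)).image Prod.snd continuous_snd.continuousOn
      rwa [image_univ, Prod.range_snd] at this
    exact e ▸ isPreconnected_Ici.prod k

  top := by
    have d0 := h.pos
    obtain ⟨k1, k2⟩ := kap_emb (c := δ + t - δ') (by linarith)
    refine ⟨sp δ' C', kap (δ + t - δ'), isSpacetime h', k1, kap_isom h' (by linarith) e, H,
      fun (q : Pt) => ?_, fun a H k => ?_⟩
    · have : Real.exp (Real.log (Real.exp q.1 + (δ + t - δ'))) = Real.exp q.1 + (δ + t - δ') :=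
        Real.exp_log (by linarith [Real.exp_pos q.1])
      simp only [uu, vv, kap, this]
      linarith [Real.exp_pos q.1]
    obtain ⟨mu, mv⟩ := uv_mono h H Subset.rfl
    have hn : ∀ t ∈ Ioo (0 : ℝ) 1, Ioo (0 : ℝ) 1 ∈ 𝓝 t := fun t ht => Ioo_mem_nhds ht.1 ht.2
    have m0 : (1 / 2 : ℝ) ∈ Ioo (0 : ℝ) 1 := by norm_num
    exact lim_of (b := a) (A := |uu δ (a (1 / 2))| + |vv δ (a (1 / 2))| + 2 * |t - δ'|) h m0.2
      (mul_one 1) (tau_gt δ (a (1 / 2))) fun s hs => by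
        have hs' : s ∈ Ioo (0 : ℝ) 1 := ⟨m0.1.trans hs.1, hs.2⟩
        have b1 := mu m0 hs' hs.1
        have b2 := mv m0 hs' hs.1
        have b3 : uu δ (a s) + vv δ (a s) ≤ 2 * (t - δ') := by
          simp only [uu, vv]
          linarith [not_lt.1 (mt (k2 (a s)) (k s hs'))]
        have a1 := abs_le.1 (le_refl |uu δ (a (1 / 2))|)
        have a2 := abs_le.1 (le_refl |vv δ (a (1 / 2))|)
        have a3 := abs_le.1 (le_refl |t - δ'|)
        exact ⟨H.1.continuousAt (hn s hs'), abs_le.2 ⟨by linarith, by linarith⟩,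
          abs_le.2 ⟨by linarith, by linarith⟩, by linarith,
          fun σ k' => by simpa only [one_smul] using vel_of_curve h H (hn s hs') k'⟩

end Vale.Agent.P354YG
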