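import Vale.Agent.P354YG.Gd
import Vale.Agent.P354XJ.Tf
import Vale.Agent.P354XA.Main
import Vale.Agent.P354Q.Vac

/-!
Block GLU: the glued spacetime is a development without future extension.
-/

set_option linter.all false

open scoped ContDiff
open Set Filter Topology

noncomputable section

namespace Vale.Agent.P354YG

open Vale.Agent.P354n
open Vale.Agent.P354XJ (res pl_spacetime pl_isom Cross vel tm_pos bilin_of sign_of_deriv xs_cont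
  xs_pt)
open Vale.Agent.P354XE (Tw Lor Cut Low Tm Fc Ac Ind pt xs COL GLU)
open Vale.Agent.P354XA (Bar Acc acc)
open Vale.Agent.P354I (X Dat IsDev NoExt Good pd)

variable {D D1 : Set R4} {g : Tw} {Xf : R4 → R4} {ρ : R4 → ℝ} {J : X → R4} {M N : Spc}
  {τ : M.pt → ℝ} {O : Set M.pt} {hO : IsOpen O} {i1 : D1 → N.pt} {i2 : O → N.pt} {e : N.Chart}
  {d : Dat} {c : ℝ → N.pt}

/-- The part where f is negative, and the part where f vanishes. -/
def Ng (i1 : D1 → N.pt) (f : R4 → ℝ) : Set N.pt := i1 '' {x | f x < 0}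
def Ze (i1 : D1 → N.pt) (f : R4 → ℝ) : Set N.pt := i1 '' {x | f x = 0}

namespace Gd
variable (h : Gd D g Xf ρ τ N D1 O hO i1 i2 e)
include h

lemma ng {f : R4 → ℝ} {x : D1} : i1 x ∈ Ng i1 f ↔ f x < 0 := h.e1.injective.mem_set_image

lemma ze {f : R4 → ℝ} {x : D1} : i1 x ∈ Ze i1 f ↔ f x = 0 := h.e1.injective.mem_set_image

lemma notng {p : N.pt} : p ∉ Ng i1 ρ ↔ ∃ y : O, 0 ≤ τ y ∧ i2 y = p := by
  refine ⟨fun k => (h.cov p).resolve_left k, ?_⟩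
  rintro ⟨y, k, rfl⟩ ⟨x, k1, k2⟩
  exact ((h.dis x y k2).1 k1).not_ge k

theorem cross (hL : Lor g D Xf) (hτ : Continuous τ) {f : R4 → ℝ} (hf : ContinuousOn f D)
    (h0 : ∀ p ∈ D, f p = 0 → Tm g Xf f p) (h1 : ∀ p ∈ D, f p < 0 → ρ p < 0) :
    Cross N (Ng i1 f)ᶜ (Ze i1 f) := by
  have cf : Continuous fun x : D1 => f x := (hf.mono h.sub).restrict
  have op : IsOpen (Ng i1 f) := h.e1.isOpenMap _ (isOpen_lt cf continuous_const)
  refine Cross.of_chart op.isClosed_compl (fun p hp => ?_) ?_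
  · rw [frontier_compl, op.frontier_eq] at hp
    by_cases k : p ∈ range i1
    · obtain ⟨x, rfl⟩ := k
      refine h.ze.2 (le_antisymm ?_ (not_lt.1 fun k => hp.2 (h.ng.2 k)))
      by_contra! k
      obtain ⟨_, ⟨z, z1, rfl⟩, z2⟩ := mem_closure_iff.1 hp.1 _
        (h.e1.isOpenMap _ (isOpen_lt continuous_const cf)) ⟨x, k, rfl⟩
      exact lt_asymm z1 (h.ng.1 z2)
    · obtain ⟨y, -, rfl⟩ := (h.cov p).resolve_left fun ⟨x, _, hx⟩ => k ⟨x, hx⟩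
      obtain ⟨_, ⟨z, z1, rfl⟩, x, x1, x2⟩ := mem_closure_iff.1 hp.1 _ (h.e2.isOpenMap _
        (isOpen_lt continuous_const (hτ.comp continuous_subtype_val))) ⟨y, (h.out y).resolve_left k, rfl⟩
      exact (lt_asymm z1 ((h.dis x z x2).1 (h1 _ (h.sub x.2) x1))).elim
  · rintro _ ⟨x, hx, rfl⟩
    have m := h.sub x.2
    have T := h0 _ m hx
    refine ⟨e, f, (h.on x).1, (h.on x).2 ▸ T.1.differentiableAt one_ne_zero, fun w k1 k2 => ?_, ?_⟩
    · rw [(h.on x).2, h.eg] at *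
      rw [h.eX] at k2
      refine tm_pos hL m T (fun k => ?_) k1.le k2.le
      have := (bilin_of hL m).smul_left 0 0 0
      rw [k] at k1
      simp only [zero_smul, zero_mul] at this
      exact k1.ne this
    · filter_upwards [h.e1.isOpen_range.mem_nhds ⟨x, rfl⟩] with q hq
      obtain ⟨z, rfl⟩ := hq
      rw [(h.on z).2, mem_compl_iff, h.ng, h.ze, not_lt]
      exact ⟨Iff.rfl, Iff.rfl⟩

/-- Curves in the first part, in the chart. -/
lemma fc {S : Set R4} (hc : IsFutureCurve N 0 (Ioo 0 1) c)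
    (hm : ∀ t ∈ Ioo (0 : ℝ) 1, ∃ x : D1, x.1 ∈ S ∧ i1 x = c t) :
    Fc g Xf S fun t => co e (c t) := fun t ht => by
  obtain ⟨x, x1, x2⟩ := hm t ht
  obtain ⟨w, w1, w2, w3⟩ := vel hc (Ioo_mem_nhds ht.1 ht.2) (x2 ▸ (h.on x).1)
  rw [h.eg] at w2 w3
  rw [h.eX] at w3
  refine ⟨?_, w1.differentiableAt, ?_⟩
  · show co e (c t) ∈ S
    rwa [← x2, (h.on x).2]
  · rw [w1.deriv]
    exact ⟨w2, w3⟩

lemma tend {l : Filter ℝ} (hm : ∀ᶠ t in l, c t ∈ range i1) {x : R4} (hx : x ∈ D1)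
    (k : Tendsto (fun t => co e (c t)) l (𝓝 x)) : Tendsto c l (𝓝 (i1 ⟨x, hx⟩)) := by
  refine fun S hS => ?_
  have a := h.o1.isOpenEmbedding_subtypeVal.image_mem_nhds.2
    (h.e1.continuous.continuousAt.preimage_mem_nhds hS)
  refine mem_map.2 ?_
  filter_upwards [hm, mem_map.1 (k a)] with t h1 h2
  obtain ⟨z, hz⟩ := h1
  obtain ⟨z', z1, z2⟩ := h2
  have : z' = z := Subtype.ext (z2.trans (by show co e (c t) = _; rw [← hz, (h.on z).2]))
  show c t ∈ S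
  rw [← hz, ← this]
  exact z1

/-- Curves in the second part. -/
lemma lift (hM : Inn M τ) (hc : IsFutureCurve N 0 (Ioo 0 1) c)
    (hm : ∀ t ∈ Ioo (0 : ℝ) 1, c t ∉ Ng i1 ρ) : ∃ b : ℝ → O, IsFutureCurve M 0 (Ioo 0 1)
      (fun t => (b t).1) ∧ (∀ t ∈ Ioo (0 : ℝ) 1, i2 (b t) = c t ∧ 0 ≤ τ (b t)) ∧
      ∀ l : Filter ℝ, l.NeBot → Ioo 0 1 ∈ l → ∀ x, Tendsto (fun t => (b t).1) l (𝓝 x) →
        ∃ y, Tendsto c l (𝓝 y) := by
  obtain ⟨b, b1, b2⟩ := cv_lift (M := res M O hO) (pl_spacetime hM.st) h.st h.e2 h.iso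
    isOpen_Ioo.uniqueDiffOn ⟨1 / 2, by norm_num⟩ hc fun t ht =>
      let ⟨y, _, k⟩ := h.notng.1 (hm t ht); ⟨y, k⟩
  have b3 : ∀ t ∈ Ioo (0 : ℝ) 1, 0 ≤ τ (b t).1 := fun t ht => by
    obtain ⟨y, y1, y2⟩ := h.notng.1 (hm t ht)
    rwa [h.e2.injective (y2.trans (b2 t ht).symm)] at y1
  refine ⟨b, cv_push (M := res M O hO) (pl_spacetime hM.st) hM.st hO.isOpenEmbedding_subtypeVal
    (pl_isom hM.st) isOpen_Ioo.uniqueDiffOn b1, fun t ht => ⟨b2 t ht, b3 t ht⟩,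
    fun l _ hl x hx => ?_⟩
  have x0 : 0 ≤ τ x := ge_of_tendsto ((hM.cont.tendsto x).comp hx) (mem_of_superset hl b3)
  exact ⟨i2 ⟨x, h.m2 x x0⟩, ((h.e2.continuous.tendsto _).comp
    (tendsto_subtype_rng.2 hx)).congr' (mem_of_superset hl b2)⟩

variable (hl : Low d D g Xf ρ J) (hM : Inn M τ)
include hl hM

lemma crT : Cross N (Ng i1 fun p => p.1)ᶜ (Ze i1 fun p => p.1) :=
  h.cross hl.cut.lor hM.cont continuous_fst.continuousOn (fun p hp k => by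
    have := (hl.mem _ (hl.ne p hp).1).2
    rwa [show pt 0 (xs p) = p from Prod.ext k.symm rfl] at this) fun p hp k => (hl.ne p hp).2 k.le

lemma crB : Cross N (Ng i1 ρ)ᶜ (Ze i1 ρ) :=
  h.cross hl.cut.lor hM.cont hl.cut.cont (fun p hp k => by
    obtain ⟨y, hy, rfl⟩ := (hl.cut.zero p hp).1 k
    exact (hl.cut.mem y hy).2) fun _ _ k => k

theorem bar : Bar N (Ng i1 fun p => p.1)ᶜ := by
  refine (h.crT hl hM).bar (fun c hc k => ?_) fun c hc k => ?_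
  · by_contra! k1
    by_cases k2 : ∀ t ∈ Ioo (0 : ℝ) 1, c t ∉ Ng i1 ρ
    · obtain ⟨b, b1, b2, b3⟩ := h.lift hM hc k2
      obtain ⟨x, hx⟩ := hM.past _ b1 fun t ht => (b2 t ht).2
      obtain ⟨y, hy⟩ := b3 _ inferInstance (Ioo_mem_nhdsGT zero_lt_one) x hx
      exact k y hy
    push Not at k2
    obtain ⟨l, l1, l2⟩ := k2
    obtain ⟨a1, a2, a3⟩ := cv_init h.st (Ioo_subset_Ioc_self l1) hc
    have m : ∀ t ∈ Ioo (0 : ℝ) 1, ∃ x : D1, x.1 ∈ {p ∈ D | ρ p < 0 ∧ 0 ≤ p.1} ∧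
        i1 x = c (0 + t * l) := fun t ht => by
      have m := a2 t ht
      obtain ⟨x, x1, x2⟩ : c (0 + t * l) ∈ Ng i1 ρ := by
        by_contra k3
        exact ((h.crB hl hM).fut hc (fun u hu => ⟨m.1.trans_le hu.1, hu.2.trans_lt l1.2⟩) m.2
          k3).1 l2
      exact ⟨x, ⟨h.sub x.2, x1, not_lt.1 fun k3 =>
        k1 _ ⟨m.1, m.2.trans l1.2⟩ (x2 ▸ h.ng.2 k3)⟩, x2⟩
    have F := h.fc a1 m
    obtain ⟨x, x1, x2⟩ := hl.past _ F
    have x3 : ρ x ≤ 0 := le_of_tendsto ((hl.cut.cont.continuousAt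
      (hl.cut.lor.isOpen.mem_nhds x1)).tendsto.comp x2)
      (mem_of_superset (Ioo_mem_nhdsGT zero_lt_one) fun t ht => (F t ht).1.2.1.le)
    exact k _ (a3 _ (h.tend (mem_of_superset (Ioo_mem_nhdsGT zero_lt_one) fun t ht =>
      let ⟨x, _, k⟩ := m t ht; ⟨x, k⟩) (h.m1 x x1 x3) x2))
  · by_contra! k1
    have m : ∀ t ∈ Ioo (0 : ℝ) 1, ∃ x : D1, x.1 ∈ {p ∈ D | p.1 < 0} ∧ i1 x = c t := fun t ht =>
      let ⟨x, x1, x2⟩ := not_not.1 (k1 t ht); ⟨x, ⟨h.sub x.2, x1⟩, x2⟩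
    have F := h.fc hc m
    obtain ⟨x, x1, x2⟩ := hl.fut _ F
    have x3 : x.1 ≤ 0 := le_of_tendsto ((continuous_fst.tendsto x).comp x2)
      (mem_of_superset (Ioo_mem_nhdsLT zero_lt_one) fun t ht => (F t ht).1.2.le)
    exact k _ (h.tend (mem_of_superset (Ioo_mem_nhdsLT zero_lt_one) fun t ht =>
      let ⟨x, _, k⟩ := m t ht; ⟨x, k⟩) (h.m1 x x1 ((hl.ne x x1).2 x3).le) x2)

theorem noext : NoExt N := by
  by_contra k
  obtain ⟨L, a, A, I, H⟩ := acc N _ h.st (h.bar hl hM) k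
  obtain ⟨M', κ, s1, s2, s3, s4, s5, s6⟩ := hM.top
  have av := H.avoid M' (fun q => i2 ⟨κ q, h.m2 _ (s5 q).le⟩) s1
    (h.e2.comp (.of_comp _ hO.isOpenEmbedding_subtypeVal s2))
    (P354V.isom_comp (N := res M O hO) s1 (pl_spacetime hM.st) h.st
      (s2.continuous.subtype_mk _) (P354XJ.isom_to_pl s3) h.iso) s4
  have m0 : ∀ s ∈ Ioo 0 L, a s ∈ Ng i1 ρ := fun s hs => by
    by_contra k1
    have sub : Ioo s L ⊆ Ioo 0 L := Ioo_subset_Ioo_left hs.1.le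
    obtain ⟨a1, a2, a3⟩ := cv_fin h.st hs.2 (cv_mono H.curve sub isOpen_Ioo.uniqueDiffOn)
    obtain ⟨b, b1, b2, b3⟩ := h.lift hM a1 fun t ht => ((h.crB hl hM).fut H.curve
      (fun u hu => ⟨hs.1.trans_le hu.1, hu.2.trans_lt (a2 t ht).2⟩) (a2 t ht).1 k1).1
    obtain ⟨x, hx⟩ := s6 _ b1 fun t ht ⟨q, hq⟩ => av _ (sub (a2 t ht))
      ⟨q, (congrArg i2 (Subtype.ext hq)).trans (b2 t ht).1⟩
    obtain ⟨y, hy⟩ := b3 _ inferInstance (Ioo_mem_nhdsLT zero_lt_one) x hx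
    obtain ⟨u, hu⟩ := (𝓝[<] L).exists_seq_tendsto
    obtain ⟨n, hn⟩ := (hu.eventually (H.leave _
      ((a3 y hy).comp hu).isCompact_insert_range)).exists
    exact hn (Or.inr ⟨n, rfl⟩)
  have m : ∀ s ∈ Ioo 0 L, ∃ x : D1, x.1 ∈ {p ∈ D | ρ p < 0 ∧ 0 ≤ p.1} ∧ i1 x = a s := fun s hs =>
    let ⟨x, x1, x2⟩ := m0 s hs
    ⟨x, ⟨h.sub x.2, x1, not_lt.1 fun k3 => H.mem s hs (x2 ▸ h.ng.2 k3)⟩, x2⟩
  obtain ⟨K, K1, K2, K3⟩ := hl.lya L (fun t => co e (a t)) A I ⟨H.pos, ⟨H.prim.1, H.prim.2.2⟩,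
    fun s hs => by
      obtain ⟨x, x1, x2⟩ := m s hs
      have on : On e (a s) := x2 ▸ (h.on x).1
      obtain ⟨w, w1, w2, w3⟩ := vel H.curve (Ioo_mem_nhds hs.1 hs.2) on
      obtain ⟨c1, c2⟩ := H.chart s hs e on _ _ _ rfl rfl rfl
      rw [h.eg] at w2 w3 c2
      rw [h.eX] at w3
      refine ⟨?_, c1, ?_, c2⟩
      · show co e (a s) ∈ _
        rwa [← x2, (h.on x).2]
      · rw [w1.deriv]
        exact ⟨w2, w3⟩⟩
  have K4 : IsCompact (K ∩ ρ ⁻¹' Iic 0) := K2.of_isClosed_subset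
    ((hl.cut.cont.mono K1).preimage_isClosed_of_isClosed K2.isClosed isClosed_Iic) inter_subset_left
  have K5 : IsCompact (i1 '' (Subtype.val ⁻¹' (K ∩ ρ ⁻¹' Iic 0))) := by
    refine IsCompact.image ?_ h.e1.continuous
    rwa [Subtype.isCompact_iff, Subtype.image_preimage_coe,
      inter_eq_right.2 fun p hp => h.m1 p (K1 hp.1) hp.2]
  obtain ⟨s, s1, s2, s3⟩ := (K3.and_eventually ((H.leave _ K5).and (Ioo_mem_nhdsLT H.pos))).exists
  obtain ⟨x, x1, x2⟩ := m s s3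
  rw [← x2, (h.on x).2] at s1
  exact s2 ⟨x, ⟨s1, x1.2.1.le⟩, x2⟩

theorem conn : ConnectedSpace N.pt := by
  have y0 : P354I.ee 0 ≠ 0 := by simp [P354I.ee]
  obtain ⟨p1, p2⟩ := hl.cut.mem _ y0
  have p3 := (hl.cut.zero _ p1).2 ⟨_, y0, rfl⟩
  have p4 := h.m1 _ p1 p3.le
  have c1 : IsPreconnected (Ng i1 ρ) := by
    refine IsPreconnected.image ?_ _ h.e1.continuous.continuousOn
    rw [← IsInducing.subtypeVal.isPreconnected_image]
    have : (Subtype.val '' {x : D1 | ρ x < 0}) = {p ∈ D | ρ p < 0} :=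
      Subset.antisymm (by rintro _ ⟨x, k, rfl⟩; exact ⟨h.sub x.2, k⟩)
        fun p hp => ⟨⟨p, h.m1 p hp.1 hp.2.le⟩, hp.2, rfl⟩
    exact this ▸ hl.conn
  have c2 : IsPreconnected (Ng i1 ρ)ᶜ := by
    rw [show (Ng i1 ρ)ᶜ = i2 '' {y | 0 ≤ τ y} from Set.ext fun p => h.notng]
    refine IsPreconnected.image ?_ _ h.e2.continuous.continuousOn
    rw [← IsInducing.subtypeVal.isPreconnected_image]
    have : (Subtype.val '' {y : O | 0 ≤ τ y}) = {p | 0 ≤ τ p} :=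
      Subset.antisymm (by rintro _ ⟨x, k, rfl⟩; exact k) fun p hp => ⟨⟨p, h.m2 p hp⟩, hp, rfl⟩
    exact this ▸ hM.conn
  have c3 : i1 ⟨_, p4⟩ ∈ closure (Ng i1 ρ) := by
    refine image_closure_subset_closure_image h.e1.continuous ⟨⟨_, p4⟩, ?_, rfl⟩
    have l1 : HasDerivAt (fun s : ℝ => J (P354I.ee 0) + s • Xf (J (P354I.ee 0)))
        (Xf (J (P354I.ee 0))) 0 := by
      simpa using ((hasDerivAt_id (0 : ℝ)).smul_const (Xf (J (P354I.ee 0)))).const_add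
        (J (P354I.ee 0))
    have l2 := (p2.1.differentiableAt one_ne_zero).hasFDerivAt.comp_hasDerivAt_of_eq 0 l1 (by simp)
    have l3 := (sign_of_deriv (I := univ) l2.hasDerivWithinAt p2.2.1 (by simpa using p3)).2
    rw [univ_inter] at l3
    have l4 : Tendsto (fun s : ℝ => J (P354I.ee 0) + s • Xf (J (P354I.ee 0))) (𝓝[<] 0)
        (𝓝 (J (P354I.ee 0))) := by
      simpa using l1.continuousAt.tendsto.mono_left (nhdsWithin_le_nhds (s := Iio 0))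
    rw [IsInducing.subtypeVal.closure_eq_preimage_closure_image]
    refine mem_closure_of_tendsto l4 ?_
    filter_upwards [l3, l4 (h.o1.mem_nhds p4)] with s s1 s2 using ⟨⟨_, s2⟩, s1, rfl⟩
  have c4 := (c1.subset_closure subset_closure Subset.rfl).union _ c3
    (show _ ∈ (Ng i1 ρ)ᶜ from fun k => (h.ng.1 k).ne p3) c2
  rw [eq_univ_of_univ_subset ((union_compl_self _).symm.subset.trans
    (union_subset_union_left _ subset_closure))] at c4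
  exact { toPreconnectedSpace := ⟨c4⟩, toNonempty := ⟨i1 ⟨_, p4⟩⟩ }

theorem good : Good d := by
  classical
  have m : ∀ y ≠ 0, pt 0 y ∈ D1 := fun y hy =>
    h.m1 _ (hl.mem y hy).1 ((hl.ne _ (hl.mem y hy).1).2 le_rfl).le
  have y0 : P354I.ee 0 ≠ 0 := by simp [P354I.ee]
  obtain ⟨j, hj⟩ : ∃ j : X → N.pt, ∀ y (k : y ≠ 0), j y = i1 ⟨_, m y k⟩ :=
    ⟨fun y => if k : y = 0 then i1 ⟨_, m _ y0⟩ else i1 ⟨_, m y k⟩, fun y k => dif_neg k⟩
  have cp : ContDiff ℝ ∞ (pt 0) := by unfold pt; fun_prop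
  refine P354V.good_of (j := j) ⟨h.st, h.conn hl hM, h.sc, h.vac, ?_, fun c c1 c2 => ?_,
    fun y hy => ?_⟩ (h.noext hl hM)
  · rw [show (fun y : ({0}ᶜ : Set X) => j y) = i1 ∘ fun y : ({0}ᶜ : Set X) => ⟨_, m y.1 y.2⟩ from
      funext fun y => hj y.1 y.2]
    exact h.e1.isEmbedding.comp (IsEmbedding.codRestrict ((Function.LeftInverse.isEmbedding
      (xs_pt 0) xs_cont cp.continuous).comp .subtypeVal) _ _)
  · rw [show j '' {0}ᶜ = Ze i1 fun p => p.1 from Subset.antisymm ?_ ?_]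
    · exact (h.crT hl hM).cauchy (h.bar hl hM) c c1 c2
    · rintro _ ⟨y, hy, rfl⟩
      exact ⟨_, rfl, (hj y hy).symm⟩
    · rintro _ ⟨x, hx, rfl⟩
      have k := (hl.ne _ (h.sub x.2)).1
      exact ⟨_, k, (hj _ k).trans (congrArg i1 (Subtype.ext (Prod.ext (Eq.symm hx) rfl)))⟩
  · obtain ⟨G, n, g1, g2, g3, g4⟩ := hl.ind y hy
    have ev : ∀ y ≠ 0, (fun z => co e (j z)) =ᶠ[𝓝 y] pt 0 := fun y hy =>
      (eventually_ne_nhds hy).mono fun z hz => by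
        show co e (j z) = _
        rw [hj z hz, (h.on _).2]
    have e1 : ∀ y ≠ 0, ∀ i, pd i (fun z => co e (j z)) y = pd i (pt 0) y := fun y hy i => by
      rw [pd, pd, (ev y hy).fderiv_eq]
    have e2 : ∀ i k, pd i (pd k fun z => co e (j z)) y = pd i (pd k (pt 0)) y := fun i k => by
      rw [pd, pd, EventuallyEq.fderiv_eq ((eventually_ne_nhds hy).mono
        fun z hz => e1 z hz k)]
    refine ⟨e, _, G, n, rfl, hj y hy ▸ (h.on _).1, cp.contDiffAt.congr_of_eventuallyEq (ev y hy),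
      ?_⟩
    simp only [e1 y hy, e2, (ev y hy).self_of_nhds, h.eg, h.eX]
    exact ⟨g1, g2, g3, g4⟩

end Gd

/-- The abstract transfer. -/
theorem good_of_cl (hl : Low d D g Xf ρ J) (hM : Inn M τ) {ψ : O → D}
    (hc : Cl g Xf ρ J τ hl.cut.lor.isOpen hO ψ) : Good d :=
  let ⟨_, _, _, _, _, _, _, h⟩ := exists_gd hl.cut hM hc
  h.good hl hM

/-- **GLU.** -/
theorem glu (hC : COL) : GLU := by
  rintro d D g Xf ρ J d' hl hd hi ⟨δ, V, t, δ', C', G, h', ht, e, H⟩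
  obtain ⟨O, hO, ψ, k1, k2, k3, k4⟩ := hC D g Xf ρ J hl.cut d' δ V hd hi G
  have d0 := G.pos
  have s : ∀ p : P354P.Pt, P354P.uu δ p + P354P.vv δ p = 2 * (Real.exp p.1 - δ) := fun p => by
    rw [P354P.uu, P354P.vv]; ring
  refine good_of_cl (hO := hO) hl (inn_sp G.isDN (G.vacuum P354Q.vac) h' ht e H)
    ⟨k1, k2, fun y hy => ⟨_, (k3 y hy).2⟩, fun (q : P354P.Pt) hq => ?_, fun a => ?_⟩
  · obtain ⟨y, hy, rfl⟩ := (P354P.mem_jX (δ := δ) (p := q)).2 (by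
      rw [← Real.exp_eq_exp, Real.exp_log d0]
      linarith [s q])
    exact (k3 y hy).1
  · rw [(k4 a).1, (k4 a).2, Real.log_lt_iff_lt_exp d0, Real.lt_log_iff_exp_lt d0]
    have := s a.1
    exact ⟨⟨fun k => by linarith, fun k => by linarith⟩, fun k => by linarith, fun k => by linarith⟩

end Vale.Agent.P354YG
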