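import Vale.Agent.P354XP.Defs
import Vale.Agent.P354ST.Fam

/-!
CONE: the chart of the slice which opens the cone.
-/

set_option linter.all false

open scoped ContDiff
open Set Filter Topology Real

noncomputable section

namespace Vale.Agent.P354YG

open Vale.Agent.P354I (X Cyl Cy1)
open Vale.Agent.P354E (sg sg_sq)
open Vale.Agent.P354XC (Gam)
open Vale.Agent.P354XP (Lam dir CONE)
open Vale.Agent.P354ST (iter_scale cd_co)

lemma nsq (y : X) : ‖y‖ ^ 2 = y 0 ^ 2 + y 1 ^ 2 + y 2 ^ 2 := by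
  rw [EuclideanSpace.norm_sq_eq, Fin.sum_univ_three]
  simp only [Real.norm_eq_abs, sq_abs]

/-! ### Families which are homogeneous near the origin and far out -/

/-- The profile: 1 for t ≤ 2, 0 for t ≥ 5. -/
def pf (t : ℝ) : ℝ := smoothTransition ((5 - t) / 3)

lemma pf_one {t : ℝ} (h : t ≤ 2) : pf t = 1 := smoothTransition.one_of_one_le (by linarith)
lemma pf_zero {t : ℝ} (h : 5 ≤ t) : pf t = 0 := smoothTransition.zero_of_nonpos (by linarith)
lemma pf_cd : ContDiff ℝ ∞ pf := smoothTransition.contDiff.comp (by fun_prop)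

theorem fam_cy {N : X → ℝ} {G : ℝ → X → X} (n1 : ∀ y, ‖y‖ ≤ 2 * N y ∧ N y ≤ ‖y‖)
    (n2 : ∀ r > 0, ∀ y, N (r • y) = r * N y) (n3 : ∀ y ≠ 0, ContDiffAt ℝ ∞ N y)
    (g1 : ∀ b, ∀ r > (0 : ℝ), ∀ y, G b (r • y) = r • G b y)
    (g2 : ∀ b, ∀ y ≠ 0, ContDiffAt ℝ ∞ (fun z : ℝ × X => G z.1 z.2) (b, y))
    (g3 : ∀ b, ∀ y ≠ 0, ‖y‖ ≤ 2 * ‖G b y‖ ∧ ‖G b y‖ ≤ 2 * ‖y‖) :
    ∃ B, (∀ j, 0 ≤ B j) ∧ ∀ ρ > 0, Cy1 B fun y => G (pf (N y / ρ)) y := by
  have sm : ∀ ρ : ℝ, ∀ y ≠ 0, ContDiffAt ℝ ∞ (fun y => G (pf (N y / ρ)) y) y := fun ρ y hy =>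
    (g2 _ y hy).comp (f := fun y => (pf (N y / ρ), y)) y
      ((pf_cd.contDiffAt.comp y ((n3 y hy).div_const ρ)).prodMk contDiffAt_id)
  have key : ∀ j : ℕ, ∃ b, 3 ≤ b ∧ ∀ y ∈ Metric.closedBall (0 : X) 20 \ Metric.ball 0 1,
      ‖iteratedFDeriv ℝ j (fun y => G (pf (N y / 1)) y) y‖ ≤ b := by
    intro j
    obtain ⟨b, hb⟩ := ((isCompact_closedBall (0 : X) 20).diff
      (Metric.isOpen_ball (x := 0) (ε := 1))).exists_bound_of_continuousOn (f := iteratedFDeriv ℝ j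
        fun y => G (pf (N y / 1)) y) fun y hy =>
      ((sm 1 y fun k => hy.2 (by simp [k])).continuousAt_iteratedFDeriv
        (by exact_mod_cast le_top)).continuousWithinAt
    exact ⟨max 3 b, le_max_left _ _, fun y hy => (hb y hy).trans (le_max_right _ _)⟩
  choose B B1 hB using key
  refine ⟨fun j => 2 * 20 ^ j * B j, fun j => by have := B1 j; positivity, fun ρ hρ =>
    ⟨fun y hy => (sm ρ y hy).contDiffWithinAt, fun y hy k => ?_, fun j y hy => ?_, fun y hy => ?_⟩⟩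
  · have := (g3 (pf (N y / ρ)) y hy).1
    rw [k, norm_zero] at this
    exact hy (norm_le_zero_iff.1 (by linarith))
  · have y0 := norm_pos_iff.2 hy
    obtain ⟨r, r0, r1, r2, hr⟩ : ∃ r > 0, r ≤ ‖y‖ ∧ ‖y‖ ≤ 20 * r ∧
        ∀ᶠ z in 𝓝 y, pf (N z / ρ) = pf (N z / r) := by
      rcases lt_or_ge ‖y‖ ρ with k | k
      · refine ⟨_, y0, le_rfl, by linarith, ?_⟩
        filter_upwards [continuous_norm.continuousAt.eventually_lt_const
          (show ‖y‖ < 2 * ‖y‖ by linarith)] with z hz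
        have := (n1 z).2
        rw [pf_one ((div_le_iff₀ hρ).2 (by linarith)), pf_one ((div_le_iff₀ y0).2 (by linarith))]
      rcases le_or_gt ‖y‖ (20 * ρ) with k' | k'
      · exact ⟨ρ, hρ, k, k', Eventually.of_forall fun _ => rfl⟩
      · refine ⟨‖y‖ / 20, by positivity, by linarith, by linarith, ?_⟩
        filter_upwards [continuous_norm.continuousAt.eventually_const_lt
          (show ‖y‖ / 2 < ‖y‖ by linarith)] with z hz
        have := (n1 z).1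
        rw [pf_zero ((le_div_iff₀ hρ).2 (by linarith)),
          pf_zero ((le_div_iff₀ (by positivity)).2 (by linarith))]
    have i0 := inv_pos.2 r0
    have e : (fun z => G (pf (N z / ρ)) z) =ᶠ[𝓝 y]
        fun z => r • (fun y => G (pf (N y / 1)) y) (r⁻¹ • z) := hr.mono fun z hz => by
      simp only [hz, n2 _ i0, g1 _ _ i0, smul_smul, mul_inv_cancel₀ r0.ne', one_smul, div_one]
      rw [inv_mul_eq_div]
    have ne : r⁻¹ • y ≠ 0 := smul_ne_zero i0.ne' hy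
    have nn : ‖r⁻¹ • y‖ = ‖y‖ / r := by rw [norm_smul, norm_of_nonneg i0.le, inv_mul_eq_div]
    have b := hB j (r⁻¹ • y) ⟨by
      rw [mem_closedBall_zero_iff, nn]; exact (div_le_iff₀ r0).2 r2, by
      rw [mem_ball_zero_iff, nn, not_lt]; exact (one_le_div r0).2 r1⟩
    rw [(e.iteratedFDeriv ℝ j).eq_of_nhds, iteratedFDeriv_const_smul_apply'
      (f := fun z => (fun y => G (pf (N y / 1)) y) (r⁻¹ • z))
      (((sm 1 _ ne).comp y (contDiffAt_id.const_smul r⁻¹)).of_le (by exact_mod_cast le_top)),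
      iter_scale j (fun y => G (pf (N y / 1)) y) i0.ne', norm_smul, norm_smul, norm_pow, norm_of_nonneg r0.le,
      norm_of_nonneg i0.le]
    have a1 : ‖y‖ ^ j * r⁻¹ ^ j ≤ 20 ^ j := by
      rw [← mul_pow]
      exact pow_le_pow_left₀ (by positivity) ((div_le_iff₀ r0).2 r2) j
    have a2 := (g3 (pf (N y / ρ)) y hy).1
    have a3 := B1 j
    calc _ = r * (‖y‖ ^ j * r⁻¹ ^ j) * ‖iteratedFDeriv ℝ j (fun y => G (pf (N y / 1)) y) (r⁻¹ • y)‖ := by
          ring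
      _ ≤ (2 * ‖G (pf (N y / ρ)) y‖) * 20 ^ j * B j := by gcongr; linarith
      _ = _ := by ring
  · have y0 := norm_pos_iff.2 hy
    obtain ⟨a1, a2⟩ := g3 (pf (N y / ρ)) y hy
    have g0 : 0 < ‖G (pf (N y / ρ)) y‖ := by linarith
    have l2 : log 2 < 1 := by linarith [log_two_lt_d9]
    have b1 := log_le_log y0 a1
    have b2 := log_le_log g0 a2
    rw [log_mul two_ne_zero g0.ne'] at b1
    rw [log_mul two_ne_zero y0.ne'] at b2
    have b3 := B1 0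
    simp only [pow_zero, mul_one]
    set s := log ‖y‖
    set t := log ‖G (pf (N y / ρ)) y‖
    have b4 : (s - t) ^ 2 ≤ 1 := by nlinarith
    nlinarith [sq_nonneg (s - 2 * t), sq_nonneg t]

lemma cy_mono {B B' : ℕ → ℝ} {ψ : X → X} (h : Cy1 B ψ) (k : ∀ j, B j ≤ B' j) : Cy1 B' ψ :=
  ⟨h.sm, h.ne, fun j y hy => (h.bd j y hy).trans (mul_le_mul_of_nonneg_right (k j) (norm_nonneg _)),
    fun y hy => (h.log y hy).trans (mul_le_mul_of_nonneg_right (k 0) (by positivity))⟩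

/-! ### The boost of the directions -/

/-- The denominator and the boost with the rapidity b along s e3. -/
def dn (s b : ℝ) (y : X) : ℝ := cosh b * ‖y‖ + s * sinh b * y 2
def bo (s b : ℝ) (y : X) : X := (‖y‖ / dn s b y) • !₂[y 0, y 1, cosh b * y 2 + s * sinh b * ‖y‖]

variable {s b : ℝ} {y : X} {σ : Bool}

lemma dn_pos (hs : s * s = 1) (hy : y ≠ 0) : 0 < dn s b y := by
  have y0 := norm_pos_iff.2 hy
  have h1 : |s * y 2| ≤ ‖y‖ := abs_le_of_sq_le_sq' (by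
    nlinarith [nsq y, sq_nonneg (y 0), sq_nonneg (y 1)]) y0.le |> abs_le.2
  have h2 : |sinh b| < cosh b := abs_lt_of_sq_lt_sq (by rw [cosh_sq]; linarith) (cosh_pos b).le
  have h3 : |sinh b * (s * y 2)| ≤ |sinh b| * ‖y‖ := by
    rw [abs_mul]; exact mul_le_mul_of_nonneg_left h1 (abs_nonneg _)
  unfold dn
  nlinarith [neg_abs_le (sinh b * (s * y 2))]

lemma norm_bo (hs : s * s = 1) (y : X) : ‖bo s b y‖ = ‖y‖ := by
  by_cases hy : y = 0
  · simp [bo, hy]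
  have d := dn_pos (b := b) hs hy
  have e : ‖(!₂[y 0, y 1, cosh b * y 2 + s * sinh b * ‖y‖] : X)‖ = dn s b y := by
    rw [← sq_eq_sq₀ (norm_nonneg _) d.le, nsq]
    have := nsq y
    simp only [dn, Matrix.cons_val_zero, Matrix.cons_val_one, Matrix.cons_val]
    linear_combination -this + (y 2 ^ 2 - ‖y‖ ^ 2) * cosh_sq b +
      (sinh b ^ 2 * (‖y‖ ^ 2 - y 2 ^ 2)) * hs
  rw [bo, norm_smul, e, norm_of_nonneg (by positivity), div_mul_cancel₀ _ d.ne']

lemma bo_bo (hs : s * s = 1) (hy : y ≠ 0) : bo s (-b) (bo s b y) = y := by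
  have d := dn_pos (b := b) hs hy
  have y0 := norm_pos_iff.2 hy
  have e : dn s (-b) (bo s b y) = ‖y‖ ^ 2 / dn s b y := by
    rw [dn, norm_bo hs, cosh_neg, sinh_neg, eq_div_iff d.ne']
    simp only [bo, PiLp.smul_apply, smul_eq_mul, Matrix.cons_val]
    field_simp
    unfold dn
    linear_combination ‖y‖ * cosh_sq b - ‖y‖ * sinh b ^ 2 * hs
  rw [bo, e, norm_bo hs, cosh_neg, sinh_neg]
  ext i
  fin_cases i
  · simp [bo]; field_simp
  · simp [bo]; field_simp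
  · simp [bo]; field_simp
    unfold dn
    linear_combination y 2 * cosh_sq b - y 2 * sinh b ^ 2 * hs

lemma bo_zero (s : ℝ) (hy : y ≠ 0) : bo s 0 y = y := by
  have y0 := norm_pos_iff.2 hy
  ext i
  fin_cases i <;> simp [bo, dn, y0.ne']

lemma bo_smul {r : ℝ} (hr : 0 < r) (y : X) : bo s b (r • y) = r • bo s b y := by
  have e : dn s b (r • y) = r * dn s b y := by
    simp only [dn, norm_smul, norm_of_nonneg hr.le, PiLp.smul_apply, smul_eq_mul]; ring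
  rw [bo, bo, e, norm_smul, norm_of_nonneg hr.le, mul_div_mul_left _ _ hr.ne']
  ext i
  fin_cases i <;> simp <;> ring

lemma bo_cd {E : Type} [NormedAddCommGroup E] [NormedSpace ℝ E] (hs : s * s = 1) {f : E → ℝ}
    {v : E → X} {x : E} (hf : ContDiffAt ℝ ∞ f x) (hv : ContDiffAt ℝ ∞ v x) (h : v x ≠ 0) :
    ContDiffAt ℝ ∞ (fun z => bo s (f z) (v z)) x := by
  have n := hv.norm ℝ h
  have c := cd_co hv
  refine (n.div ((hf.cosh.mul n).add ((contDiffAt_const.mul hf.sinh).mul (c 2)))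
    (dn_pos hs h).ne').smul (contDiffAt_euclidean.2 fun i => ?_)
  fin_cases i
  exacts [c 0, c 1, (hf.cosh.mul (c 2)).add ((contDiffAt_const.mul hf.sinh).mul n)]

/-- The inverse of Lam. -/
def Lai (σ : Bool) (y : X) : X := !₂[sg σ * y 2, 2 * y 0, 2 * y 1]

lemma lam_lai (y : X) : Lam σ (Lai σ y) = y := by
  ext i
  fin_cases i <;> simp [Lam, Lai, ← mul_assoc, sg_sq]

lemma lai_lam (y : X) : Lai σ (Lam σ y) = y := by
  ext i
  fin_cases i <;> simp [Lam, Lai, ← mul_assoc, sg_sq] <;> ring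

lemma nsq_lam (y : X) : ‖Lam σ y‖ ^ 2 = y 0 ^ 2 + (y 1 ^ 2 + y 2 ^ 2) / 4 := by
  rw [nsq]
  simp only [Lam, Matrix.cons_val_zero, Matrix.cons_val_one, Matrix.cons_val]
  linear_combination y 0 ^ 2 * sg_sq σ

lemma norm_lam (y : X) : ‖y‖ ≤ 2 * ‖Lam σ y‖ ∧ ‖Lam σ y‖ ≤ ‖y‖ :=
  ⟨(abs_le_of_sq_le_sq' (by rw [mul_pow, nsq_lam, nsq]; nlinarith) (by positivity)).2,
    (abs_le_of_sq_le_sq' (by rw [nsq_lam, nsq]; nlinarith) (norm_nonneg _)).2⟩

lemma lam_ne (hy : y ≠ 0) : Lam σ y ≠ 0 :=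
  norm_pos_iff.1 (by linarith [norm_pos_iff.2 hy, (norm_lam (σ := σ) y).1])

lemma lam_smul (r : ℝ) (y : X) : Lam σ (r • y) = r • Lam σ y := by
  ext i
  fin_cases i <;> simp [Lam] <;> ring

lemma lam_add (x y : X) : Lam σ (x + y) = Lam σ x + Lam σ y := by
  ext i
  fin_cases i <;> simp [Lam] <;> ring

lemma lai_smul (r : ℝ) (y : X) : Lai σ (r • y) = r • Lai σ y := by
  ext i
  fin_cases i <;> simp [Lai] <;> ring

lemma lam_cd : ContDiff ℝ ∞ (Lam σ) := contDiff_euclidean.2 fun i => by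
  fin_cases i <;> simp [Lam] <;> fun_prop

lemma lai_cd : ContDiff ℝ ∞ (Lai σ) := contDiff_euclidean.2 fun i => by
  fin_cases i <;> simp [Lai] <;> fun_prop

/-- A large boost moves all directions away from the opposite pole into the cone. -/
lemma bo_mem {c ρ : ℝ} (hc : 0 < c) (hb : 40 ≤ c * exp b) (b0 : 0 ≤ b) (hρ : 0 < ρ) (h1 : ρ ≤ ‖y‖)
    (h2 : c * ‖y‖ ≤ ‖y‖ + sg σ * y 2) : Lai σ (bo (sg σ) b y) ∈ Gam (ρ / 2) := by
  have y0 : 0 < ‖y‖ := by linarith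
  have hs := sg_sq σ
  have d := dn_pos (b := b) hs (norm_pos_iff.1 y0)
  have n := nsq (bo (sg σ) b y)
  rw [norm_bo hs] at n
  have u1 : sg σ * y 2 ≤ ‖y‖ := (abs_le_of_sq_le_sq' (by
    nlinarith [nsq y, sq_nonneg (y 0), sq_nonneg (y 1)]) y0.le).2
  have key : 9 / 10 * ‖y‖ ≤ sg σ * bo (sg σ) b y 2 := by
    have e : sg σ * bo (sg σ) b y 2 =
        ‖y‖ * ((cosh b * (sg σ * y 2) + sinh b * ‖y‖) / dn (sg σ) b y) := by
      simp only [bo, PiLp.smul_apply, smul_eq_mul, Matrix.cons_val]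
      field_simp
      linear_combination sinh b * ‖y‖ * hs
    rw [e, mul_comm]
    refine mul_le_mul_of_nonneg_left ((le_div_iff₀ d).2 ?_) y0.le
    have e1 : exp (-b) ≤ 1 := exp_le_one_iff.2 (by linarith)
    have e2 := exp_pos (-b)
    have e3 := exp_pos b
    have e4 : 40 * ‖y‖ ≤ exp b * (‖y‖ + sg σ * y 2) := by nlinarith
    have e5 : exp (-b) * (‖y‖ - sg σ * y 2) ≤ 2 * ‖y‖ := by nlinarith
    rw [dn, cosh_eq, sinh_eq]
    nlinarith
  have q : (sg σ * bo (sg σ) b y 2) ^ 2 = bo (sg σ) b y 2 ^ 2 := by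
    linear_combination bo (sg σ) b y 2 ^ 2 * hs
  refine ⟨?_, ?_, ?_⟩ <;>
    simp only [Lai, Matrix.cons_val_zero, Matrix.cons_val_one, Matrix.cons_val]
  · linarith
  · exact abs_le_of_sq_le_sq (by nlinarith [sq_nonneg (bo (sg σ) b y 1)]) (by linarith)
  · exact abs_le_of_sq_le_sq (by nlinarith [sq_nonneg (bo (sg σ) b y 0)]) (by linarith)

lemma dir_sub {u v : X} (hv : v ≠ 0) : ‖dir u - dir v‖ * ‖v‖ ≤ 2 * ‖u - v‖ := by
  have v0 := norm_pos_iff.2 hv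
  have e : ‖v‖ • (dir u - dir v) = (u - v) + (‖v‖ - ‖u‖) • dir u := by
    by_cases hu : u = 0
    · simp [dir, hu, smul_smul, v0.ne']
    · simp only [dir, smul_sub, smul_smul, sub_mul, sub_smul, mul_inv_cancel₀ v0.ne',
        mul_inv_cancel₀ (norm_ne_zero_iff.2 hu), one_smul]
      abel
  have a : ‖dir u‖ ≤ 1 := by
    rw [dir, norm_smul, norm_inv, norm_norm]
    exact inv_mul_le_one_of_le₀ le_rfl (norm_nonneg _)
  have k := congrArg norm e
  rw [norm_smul, norm_norm, mul_comm] at k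
  rw [k]
  refine (norm_add_le _ _).trans ?_
  rw [norm_smul, norm_eq_abs]
  have := abs_norm_sub_norm_le v u
  rw [norm_sub_rev] at this
  nlinarith [abs_nonneg (‖v‖ - ‖u‖)]

lemma lam_grow {x v : X} {R t : ℝ} (hR : 0 < R) (hx : x ∈ Gam R) (ht : 0 ≤ t) (v0 : v 0 = 1)
    (v1 : |v 1| ≤ 1) (v2 : |v 2| ≤ 1) : ‖Lam σ x‖ + t / 4 ≤ ‖Lam σ (x + t • v)‖ := by
  obtain ⟨x0, x1, x2⟩ := hx
  have a : ∀ p q : ℝ, |p| ≤ x 0 → |q| ≤ 1 → -x 0 ≤ p * q := fun p q hp hq =>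
    (neg_le_neg (by rw [abs_mul]; nlinarith [abs_nonneg p, abs_nonneg q])).trans (neg_abs_le _)
  have b : ‖Lam σ x‖ ≤ 2 * x 0 := (abs_le_of_sq_le_sq' (by
    rw [nsq_lam]; nlinarith [sq_abs (x 1), sq_abs (x 2), abs_nonneg (x 1), abs_nonneg (x 2)])
    (by linarith)).2
  refine (abs_le_of_sq_le_sq' ?_ (norm_nonneg _)).2
  rw [add_sq, nsq_lam, nsq_lam]
  simp only [PiLp.add_apply, PiLp.smul_apply, smul_eq_mul, v0]
  nlinarith [mul_le_mul_of_nonneg_left (a _ _ x1 v1) ht, mul_le_mul_of_nonneg_left (a _ _ x2 v2) ht,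
    mul_le_mul_of_nonneg_left b ht, sq_nonneg (t * v 1), sq_nonneg (t * v 2), sq_nonneg t]

/-- **CONE.** -/
theorem cone : CONE := by
  intro c hc
  obtain ⟨b, b0, hb⟩ : ∃ b, 0 ≤ b ∧ 40 ≤ c * exp b := ⟨40 / c, by positivity, by
    have := mul_le_mul_of_nonneg_left (add_one_le_exp (40 / c)) hc.le
    rw [mul_add, mul_div_cancel₀ _ hc.ne'] at this
    linarith⟩
  have h1 := fun σ => fam_cy (N := fun y => ‖Lam σ y‖) (G := fun t y => bo (sg σ) (-(b * t)) (Lam σ y))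
    norm_lam (fun r hr y => by rw [lam_smul, norm_smul, norm_of_nonneg hr.le])
    (fun y hy => lam_cd.contDiffAt.norm ℝ (lam_ne hy))
    (fun t r hr y => by rw [lam_smul, bo_smul hr])
    (fun t y hy => bo_cd (sg_sq σ) (by fun_prop) (lam_cd.contDiffAt.comp _ contDiffAt_snd)
      (lam_ne hy))
    fun t y _ => by
      rw [norm_bo (sg_sq σ)]
      exact ⟨(norm_lam y).1, by linarith [(norm_lam (σ := σ) y).2, norm_nonneg y]⟩
  have h2 := fun σ => fam_cy (N := fun y => ‖y‖) (G := fun t y => Lai σ (bo (sg σ) (b * t) y))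
    (fun y => ⟨by linarith [norm_nonneg y], le_rfl⟩)
    (fun r hr y => by rw [norm_smul, norm_of_nonneg hr.le]) (fun y hy => contDiffAt_norm ℝ hy)
    (fun t r hr y => by rw [bo_smul hr, lai_smul])
    (fun t y hy => lai_cd.contDiffAt.comp _ (bo_cd (sg_sq σ) (by fun_prop) contDiffAt_snd hy))
    fun t y _ => by
      have := norm_lam (σ := σ) (Lai σ (bo (sg σ) (b * t) y))
      rw [lam_lai, norm_bo (sg_sq σ)] at this
      exact ⟨by linarith [this.2, norm_nonneg y], this.1⟩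
  choose B1 p1 h1 using h1
  choose B2 p2 h2 using h2
  obtain ⟨B, hB⟩ : ∃ B : ℕ → ℝ, B = fun j => 1 + (B1 true j + B1 false j + B2 true j + B2 false j) :=
    ⟨_, rfl⟩
  have l : ∀ σ j, B1 σ j ≤ B j ∧ B2 σ j ≤ B j ∧ 0 < B j := fun σ j => by
    have := p1 true j
    have := p1 false j
    have := p2 true j
    have := p2 false j
    cases σ <;> simp only [hB] <;> exact ⟨by linarith, by linarith, by linarith⟩
  have B0 := (l true 1).2.2
  refine ⟨B, 1 / (32 * B 1), by positivity, fun σ ρ hρ => ?_⟩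
  have hs := sg_sq σ
  have c1 := cy_mono (h1 σ ρ hρ) fun j => (l σ j).1
  refine ⟨_, _, ⟨c1, cy_mono (h2 σ ρ hρ) fun j => (l σ j).2.1, fun y hy => ⟨?_, ?_⟩⟩,
    fun x => norm_bo hs _, fun x hx => ?_, fun y y1 y2 y3 => ?_, fun x hx t ht v v0 v1 v2 => ?_⟩
  · simp only [lam_lai, norm_bo hs, bo_bo hs hy]
  · simp only [norm_bo hs]
    have := bo_bo (b := -(b * pf (‖Lam σ y‖ / ρ))) hs (lam_ne (σ := σ) hy)
    rw [neg_neg] at this
    rw [this, lai_lam]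
  · have x0 : x ≠ 0 := norm_pos_iff.1 (by linarith)
    rw [pf_zero ((le_div_iff₀ hρ).2 (by linarith [(norm_lam (σ := σ) x).1])), mul_zero, neg_zero,
      bo_zero _ (lam_ne x0)]
  · rw [pf_one ((div_le_iff₀ hρ).2 y2), mul_one]
    exact bo_mem hc hb b0 hρ y1 y3
  obtain ⟨Ψ, hΨ⟩ : ∃ Ψ : X → X, Ψ = fun y => bo (sg σ) (-(b * pf (‖Lam σ y‖ / ρ))) (Lam σ y) :=
    ⟨_, rfl⟩
  have nΨ : ∀ y, ‖Ψ y‖ = ‖Lam σ y‖ := fun y => hΨ ▸ norm_bo hs _
  rw [← hΨ] at c1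
  show ‖_‖ + _ * ‖dir ((fun y => bo (sg σ) (-(b * pf (‖Lam σ y‖ / ρ))) (Lam σ y)) _) -
    dir ((fun y => bo (sg σ) (-(b * pf (‖Lam σ y‖ / ρ))) (Lam σ y)) _)‖ ≤ _
  rw [← hΨ, norm_bo hs, norm_bo hs]
  have cv : Convex ℝ {y : X | 0 < y 0} :=
    convex_halfSpace_gt (EuclideanSpace.proj (0 : Fin 3) : X →L[ℝ] ℝ).toLinearMap.isLinear 0
  have ne : ∀ y ∈ {y : X | 0 < y 0}, y ≠ 0 := fun y (hy : 0 < y 0) k => by simp [k] at hy
  have x0 : 0 < x 0 := by linarith [hx.1]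
  have lip := cv.norm_image_sub_le_of_norm_fderiv_le (f := Ψ) (C := B 1)
    (fun y hy => ((c1.sm.contDiffAt (isOpen_ne.mem_nhds (ne y hy))).differentiableAt (by simp)))
    (fun y hy => by
      have := c1.bd 1 y (ne y hy)
      rw [pow_one, norm_iteratedFDeriv_one, nΨ] at this
      refine le_of_mul_le_mul_left (this.trans ?_) (norm_pos_iff.2 (ne y hy))
      rw [mul_comm]
      exact mul_le_mul_of_nonneg_right (norm_lam y).2 B0.le) (x := x) (y := x + t • v) x0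
    (show 0 < (x + t • v) 0 by simp [v0]; linarith)
  have nv : ‖v‖ ≤ 2 := (abs_le_of_sq_le_sq' (by
    rw [nsq, v0]; nlinarith [sq_abs (v 1), sq_abs (v 2), abs_nonneg (v 1), abs_nonneg (v 2)])
    two_pos.le).2
  rw [add_sub_cancel_left, norm_smul, norm_of_nonneg ht] at lip
  have d := dir_sub (u := Ψ (x + t • v)) (c1.ne x (ne x x0))
  have g := lam_grow (σ := σ) (half_pos hρ) hx ht v0 v1 v2
  have a : ρ / 2 ≤ ‖Ψ x‖ := nΨ x ▸ hx.1.trans (abs_le_of_sq_le_sq' (by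
    rw [nsq_lam]; nlinarith) (norm_nonneg _)).2
  have k : ρ * ‖dir (Ψ (x + t • v)) - dir (Ψ x)‖ ≤ 8 * B 1 * t := by
    have := mul_le_mul_of_nonneg_left (mul_le_mul_of_nonneg_left nv ht) B0.le
    nlinarith [norm_nonneg (dir (Ψ (x + t • v)) - dir (Ψ x))]
  have k2 : 1 / (32 * B 1) * ρ * ‖dir (Ψ (x + t • v)) - dir (Ψ x)‖ ≤ t / 4 := by
    rw [mul_assoc, one_div, inv_mul_le_iff₀ (by positivity)]
    linarith
  linarith

end Vale.Agent.P354YG
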