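import Vale.Agent.P354YG.Inn
import Vale.Agent.P354XJ.Col

/-!
Block GLU: the spacetime glued from the part below the slice and the interior part.
-/

set_option linter.all false

open scoped ContDiff
open Set Filter Topology

noncomputable section

namespace Vale.Agent.P354YG

open Vale.Agent.P354n
open Vale.Agent.P354XJ (res one pl Span Glued gl2 pl_spacetime pl_vacuum pl_isom isom_to_pl
  isom_to_one one_sp one_vac one_on one_co)
open Vale.Agent.P354XE (Tw Lor Cut)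
open Vale.Agent.P354I (X)

variable {D D1 : Set R4} {g : Tw} {Xf : R4 → R4} {ρ : R4 → ℝ} {J : X → R4} {M : Spc}
  {τ : M.pt → ℝ} {O : Set M.pt}

lemma lor_mono (h : Lor g D Xf) (h1 : IsOpen D1) (hs : D1 ⊆ D) : Lor g D1 Xf :=
  ⟨h1, ⟨fun y k => h.met.lin y (hs k), fun y k => h.met.symm y (hs k),
    fun y k => h.met.nondeg y (hs k), fun a b => (h.met.smooth a b).mono hs⟩,
    h.vac.imp fun _ k y hy => k y (hs hy), fun p k => h.sig p (hs k), fun p k => h.tl p (hs k),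
    h.cont.mono hs⟩

/-- The isometry of collars. -/
structure Cl (g : Tw) (Xf : R4 → R4) (ρ : R4 → ℝ) (J : X → R4) (τ : M.pt → ℝ) (hD : IsOpen D)
    (hO : IsOpen O) (ψ : O → D) : Prop where
  emb : IsOpenEmbedding ψ
  iso : IsIsom (M := res M O hO) (N := one D hD g Xf) ψ
  onto : ∀ y ≠ 0, ∃ a, (ψ a).1 = J y
  zero : ∀ q, τ q = 0 → q ∈ O
  sgn : ∀ a : O, (0 < ρ (ψ a) ↔ 0 < τ a) ∧ (ρ (ψ a) < 0 ↔ τ a < 0)

/-- The glued spacetime. -/
structure Gd (D : Set R4) (g : Tw) (Xf : R4 → R4) (ρ : R4 → ℝ) (τ : M.pt → ℝ) (N : Spc)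
    (D1 : Set R4) (O2 : Set M.pt) (hO : IsOpen O2) (i1 : D1 → N.pt) (i2 : O2 → N.pt)
    (e : N.Chart) : Prop where
  st : IsSpacetime IsSmooth N
  vac : IsVacuum N
  sc : SecondCountableTopology N.pt
  o1 : IsOpen D1
  sub : D1 ⊆ D
  m1 : ∀ p ∈ D, ρ p ≤ 0 → p ∈ D1
  m2 : ∀ q, 0 ≤ τ q → q ∈ O2
  e1 : IsOpenEmbedding i1
  e2 : IsOpenEmbedding i2
  iso : IsIsom (M := res M O2 hO) i2
  eg : N.g e = g
  eX : N.X e = Xf
  on : ∀ x, On e (i1 x) ∧ co e (i1 x) = x.1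
  cov : ∀ p, (∃ x : D1, ρ x < 0 ∧ i1 x = p) ∨ ∃ y : O2, 0 ≤ τ y ∧ i2 y = p
  dis : ∀ (x : D1) (y : O2), i1 x = i2 y → (ρ x < 0 ↔ τ y < 0)
  out : ∀ y : O2, i2 y ∈ range i1 ∨ 0 < τ y

theorem exists_gd (h : Cut D g Xf ρ J) (hM : Inn M τ) {hO : IsOpen O} {ψ : O → D}
    (hc : Cl g Xf ρ J τ h.lor.isOpen hO ψ) :
    ∃ N D1 O2 hO2 i1 i2 e, Gd D g Xf ρ τ N D1 O2 hO2 i1 i2 e := by
  have hD := h.lor.isOpen
  have ev : IsOpenEmbedding fun a => (ψ a).1 := hD.isOpenEmbedding_subtypeVal.comp hc.emb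
  obtain ⟨D1, hD1⟩ : ∃ D1 : Set R4, D1 = (D ∩ ρ ⁻¹' Iio 0) ∪ range fun a => (ψ a).1 := ⟨_, rfl⟩
  have o1 : IsOpen D1 := hD1 ▸ (h.cont.isOpen_inter_preimage hD isOpen_Iio).union ev.isOpen_range
  have s1 : D1 ⊆ D := by
    rw [hD1]
    rintro p (k | ⟨a, rfl⟩)
    exacts [k.1, (ψ a).2]
  have m1 : ∀ a, (ψ a).1 ∈ D1 := fun a => hD1 ▸ Or.inr ⟨a, rfl⟩
  have c1 : ∀ x : D1, ρ x < 0 ∨ ∃ a, (ψ a).1 = x := fun x => by
    rcases hD1.subset x.2 with k | k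
    exacts [Or.inl k.2, Or.inr k]
  have o2 : IsOpen ({q | 0 < τ q} ∪ O) := (isOpen_lt continuous_const hM.cont).union hO
  have L1 := lor_mono h.lor o1 s1
  let κ1 : O → D1 := fun a => ⟨(ψ a).1, m1 a⟩
  let κ2 : O → ({q | 0 < τ q} ∪ O : Set M.pt) := inclusion subset_union_right
  have k1 : IsOpenEmbedding κ1 := .of_comp κ1 o1.isOpenEmbedding_subtypeVal ev
  have k2 : IsOpenEmbedding κ2 :=
    .of_comp κ2 o2.isOpenEmbedding_subtypeVal hO.isOpenEmbedding_subtypeVal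
  have sp : Span (A := res M O hO) (N1 := one D1 o1 g Xf) (N2 := res M _ o2) κ1 κ2 := by
    refine ⟨pl_spacetime hM.st, one_sp L1, pl_spacetime hM.st, k1, k2,
      isom_to_one.2 fun e y hy => isom_to_one.1 hc.iso e y hy,
      isom_to_pl (pl_isom (f := (Subtype.val : O → M.pt)) hM.st), ?_⟩
    refine isClosed_of_closure_subset fun (z : D1 × ({q | 0 < τ q} ∪ O : Set M.pt)) hz => ?_
    have ex : ∃ a, κ1 a = z.1 ∨ κ2 a = z.2 := by
      by_contra! k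
      have a1 : ρ z.1 < 0 := (c1 z.1).resolve_right fun ⟨a, ha⟩ => (k a).1 (Subtype.ext ha)
      have a2 : 0 < τ z.2 := z.2.2.resolve_right fun ha => (k ⟨_, ha⟩).2 rfl
      have q1 : ContinuousAt (fun w : D1 × ({q | 0 < τ q} ∪ O : Set M.pt) => ρ w.1) z :=
        (h.cont.continuousAt (hD.mem_nhds (s1 z.1.2))).comp (f := fun w : D1 ×
          ({q | 0 < τ q} ∪ O : Set M.pt) => w.1.1) (by fun_prop)
      have q2 : ContinuousAt (fun w : D1 × ({q | 0 < τ q} ∪ O : Set M.pt) => τ w.2) z :=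
        (hM.cont.comp (by fun_prop)).continuousAt
      have n1 := q1.eventually_lt_const a1
      have n2 := q2.eventually_const_lt a2
      obtain ⟨_, ⟨w1, w2⟩, a, rfl⟩ := mem_closure_iff_nhds.1 hz _ (n1.and n2)
      exact lt_asymm ((hc.sgn a).2.1 w1) w2
    have key : ∀ {Y Z : Type} [TopologicalSpace Y] [TopologicalSpace Z] [T2Space Z] (f : O → Y)
        (f' : O → Z), IsOpenEmbedding f → Continuous f' → ∀ (a : O) (z : Z),
        (f a, z) ∈ closure (range fun a => (f a, f' a)) → f' a = z := by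
      intro Y Z _ _ _ f f' hf hf' a z hz
      by_contra k
      obtain ⟨u, v, hu, hv, k1, k2, k3⟩ := t2_separation k
      obtain ⟨_, ⟨⟨b, b1, b2⟩, w2⟩, c, rfl⟩ := mem_closure_iff_nhds.1 hz _ (prod_mem_nhds
        (hf.isOpenMap.image_mem_nhds (hf'.continuousAt.preimage_mem_nhds (hu.mem_nhds k1)))
        (hv.mem_nhds k2))
      obtain rfl : b = c := hf.injective b2
      exact disjoint_left.1 k3 b1 w2
    obtain ⟨x, y⟩ := z
    obtain ⟨a, rfl | rfl⟩ := ex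
    · exact ⟨a, Prod.ext rfl (key κ1 κ2 k1 k2.continuous a y hz)⟩
    · refine ⟨a, Prod.ext (key κ2 κ1 k2 k1.continuous a x ?_) rfl⟩
      have := image_closure_subset_closure_image continuous_swap ⟨_, hz, rfl⟩
      rwa [← range_comp] at this
  obtain ⟨N, i1, i2, G⟩ := gl2 sp
  obtain ⟨a0, -⟩ := hc.onto (P354I.ee 0) (by simp [P354I.ee])
  obtain ⟨e, g1, g2, -, g3⟩ := G.chart1 (κ1 a0)
  have := hM.sc
  have : SecondCountableTopology (one D1 o1 g Xf).pt := inferInstanceAs (SecondCountableTopology D1)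
  have : SecondCountableTopology (res M _ o2).pt :=
    inferInstanceAs (SecondCountableTopology ({q | 0 < τ q} ∪ O : Set M.pt))
  refine ⟨N, D1, _, o2, i1, i2, e, G.s, G.vacuum (one_vac L1) (pl_vacuum hM.vac), G.countable, o1,
    s1, fun p hp k => ?_, fun q k => ?_, G.e1, G.e2, G.i2, g1, g2,
    fun x => ⟨(g3 x).1.2 (one_on _), (g3 x).2⟩, fun p => ?_, fun x y k => ?_, fun y => ?_⟩
  · rcases k.eq_or_lt with k | k
    · obtain ⟨y, hy, rfl⟩ := (h.zero p hp).1 k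
      obtain ⟨a, ha⟩ := hc.onto y hy
      exact ha ▸ m1 a
    · exact hD1 ▸ Or.inl ⟨hp, k⟩
  · rcases k.eq_or_lt with k | k
    exacts [Or.inr (hc.zero q k.symm), Or.inl k]
  · have c : ∀ a : O, (∃ x : D1, ρ x < 0 ∧ i1 x = i1 (κ1 a)) ∨
        ∃ y : ({q | 0 < τ q} ∪ O : Set M.pt), 0 ≤ τ y ∧ i2 y = i1 (κ1 a) := fun a => by
      rcases lt_or_ge (τ a) 0 with k | k
      exacts [Or.inl ⟨κ1 a, (hc.sgn a).2.2 k, rfl⟩, Or.inr ⟨κ2 a, k, (G.comm a).symm⟩]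
    rcases G.cover p with ⟨x, rfl⟩ | ⟨y, rfl⟩
    · rcases c1 x with k | ⟨a, ha⟩
      · exact Or.inl ⟨x, k, rfl⟩
      · obtain rfl : κ1 a = x := Subtype.ext ha
        exact c a
    · rcases y.2 with k | k
      · exact Or.inr ⟨y, le_of_lt k, rfl⟩
      · exact (G.comm ⟨_, k⟩ : _ = i2 y) ▸ c ⟨_, k⟩
  · obtain ⟨a, rfl, rfl⟩ := (G.eq x y).1 k
    exact (hc.sgn a).2
  · rcases y.2 with k | k
    exacts [Or.inr k, Or.inl ⟨_, G.comm ⟨_, k⟩⟩]

end Vale.Agent.P354YG
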